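import Vale.Agent.P092.H962.EqP

/-!
P092, project FI, [TRP] (helper406): in a commutant with a faithful finite trace and without minimal
projections every number between `0` and the trace of a projection is the trace of a projection
below it.
-/

set_option linter.all false

open scoped InnerProductSpace
open ContinuousLinearMap

namespace Vale.Agent.P092.H406.FI

open Vale.Agent.P092.H962.Eq

variable {H : Type} [NormedAddCommGroup H] [InnerProductSpace ℂ H] [CompleteSpace H]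

/-- a projection of the commutant of `S` -/
structure Pj (S : Set (H →L[ℂ] H)) (p : H →L[ℂ] H) : Prop where
  cc : Cc S p
  adj : adjoint p = p
  idem : p * p = p

variable {S : Set (H →L[ℂ] H)} {p q e f : H →L[ℂ] H} {ι : Type} [Fintype ι] {ξ : ι → H}

/-- the trace of a projection -/
noncomputable def tr (ξ : ι → H) (p : H →L[ℂ] H) : ℝ := ∑ i, ‖p (ξ i)‖ ^ 2

theorem tr_nonneg (p : H →L[ℂ] H) : 0 ≤ tr ξ p := Finset.sum_nonneg fun _ _ => by positivity

theorem tr_zero : tr ξ (0 : H →L[ℂ] H) = 0 := by simp [tr]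

theorem tr_pos (hfa : ∀ x, Cc S x → (∀ i, x (ξ i) = 0) → x = 0) (hp : Cc S p) (h0 : p ≠ 0) :
    0 < tr ξ p := by
  refine lt_of_le_of_ne (tr_nonneg p) fun h => h0 (hfa p hp fun i => ?_)
  have h1 := (Finset.sum_eq_zero_iff_of_nonneg fun i _ => sq_nonneg ‖p (ξ i)‖).1 h.symm i
    (Finset.mem_univ i)
  exact norm_eq_zero.1 (pow_eq_zero_iff two_ne_zero |>.1 h1)

theorem pyth (hp : adjoint p = p) (hpq : p * q = 0) (v : H) :
    ‖(p + q) v‖ ^ 2 = ‖p v‖ ^ 2 + ‖q v‖ ^ 2 := by
  have h1 : ⟪p v, q v⟫_ℂ = 0 := by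
    rw [← hp, adjoint_inner_left]
    have := DFunLike.congr_fun hpq v
    change p (q v) = 0 at this
    rw [this, inner_zero_right]
  have h2 := norm_add_sq (𝕜 := ℂ) (p v) (q v)
  rw [h1] at h2
  simpa using h2

theorem tr_add (hp : adjoint p = p) (hpq : p * q = 0) : tr ξ (p + q) = tr ξ p + tr ξ q := by
  rw [tr, tr, tr, ← Finset.sum_add_distrib]
  exact Finset.sum_congr rfl fun i _ => pyth hp hpq _

theorem Pj.adj_eq_mul (hf : Pj S f) (he : Pj S e) (h : e * f = f) : f * e = f := by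
  have := congrArg adjoint h
  rwa [adj_mul', hf.adj, he.adj] at this

theorem Pj.sub (he : Pj S e) (hf : Pj S f) (h : e * f = f) : Pj S (e - f) where
  cc := he.cc.sub hf.cc
  adj := by rw [map_sub, he.adj, hf.adj]
  idem := by
    have h1 := hf.adj_eq_mul he h
    rw [mul_sub, sub_mul, sub_mul, he.idem, hf.idem, h, h1]
    abel

theorem Pj.add (he : Pj S e) (hf : Pj S f) (h : e * f = 0) : Pj S (e + f) where
  cc := he.cc.add hf.cc
  adj := by rw [map_add, he.adj, hf.adj]
  idem := by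
    have h1 : f * e = 0 := by
      have := congrArg adjoint h
      rwa [adj_mul', hf.adj, he.adj, map_zero] at this
    rw [mul_add, add_mul, add_mul, he.idem, hf.idem, h, h1]
    abel

/-- no minimal projection -/
def Nm (S : Set (H →L[ℂ] H)) : Prop :=
  ∀ e, Pj S e → e ≠ 0 → ∃ f, Pj S f ∧ e * f = f ∧ f ≠ 0 ∧ f ≠ e

theorem halve (hn : Nm S) (he : Pj S e) (h0 : e ≠ 0) :
    ∃ f, Pj S f ∧ e * f = f ∧ f ≠ 0 ∧ tr ξ f ≤ tr ξ e / 2 := by
  obtain ⟨f, hf, hef, hf0, hfe⟩ := hn e he h0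
  have hfe' := hf.adj_eq_mul he hef
  have h1 : f * (e - f) = 0 := by rw [mul_sub, hfe', hf.idem, sub_self]
  have h2 : tr ξ e = tr ξ f + tr ξ (e - f) := by
    rw [← tr_add hf.adj h1, add_sub_cancel]
  by_cases h : tr ξ f ≤ tr ξ e / 2
  · exact ⟨f, hf, hef, hf0, h⟩
  · refine ⟨e - f, he.sub hf hef, ?_, sub_ne_zero.2 hfe.symm, by linarith⟩
    rw [mul_sub, he.idem, hef]

theorem small (hn : Nm S) (he : Pj S e) (h0 : e ≠ 0) {ε : ℝ} (hε : 0 < ε) :
    ∃ f, Pj S f ∧ e * f = f ∧ f ≠ 0 ∧ tr ξ f ≤ ε := by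
  have key : ∀ n : ℕ, ∃ f, Pj S f ∧ e * f = f ∧ f ≠ 0 ∧ tr ξ f ≤ tr ξ e / 2 ^ n := by
    intro n
    induction n with
    | zero => exact ⟨e, he, he.idem, h0, by simp⟩
    | succ n ih =>
      obtain ⟨f, hf, hef, hf0, hft⟩ := ih
      obtain ⟨g, hg, hfg, hg0, hgt⟩ := halve (ξ := ξ) hn hf hf0
      refine ⟨g, hg, ?_, hg0, hgt.trans ?_⟩
      · rw [← hfg, ← mul_assoc, hef]
      · rw [pow_succ, ← div_div]
        linarith
  obtain ⟨n, hn'⟩ := exists_nat_gt (tr ξ e / ε)
  obtain ⟨f, hf, hef, hf0, hft⟩ := key n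
  refine ⟨f, hf, hef, hf0, hft.trans ?_⟩
  rw [div_le_iff₀ (by positivity)]
  rw [div_lt_iff₀ hε] at hn'
  have h2 : (n : ℝ) ≤ 2 ^ n := by exact_mod_cast (Nat.lt_two_pow_self).le
  nlinarith

/-- the families -/
structure Fm (S : Set (H →L[ℂ] H)) (ξ : ι → H) (e : H →L[ℂ] H) (s : ℝ) (A : Set (H →L[ℂ] H)) :
    Prop where
  mem : ∀ v ∈ A, Pj S v ∧ e * v = v ∧ v ≠ 0
  orth : ∀ v ∈ A, ∀ v' ∈ A, v ≠ v' → v * v' = 0
  le : ∀ F : Finset (H →L[ℂ] H), (F : Set (H →L[ℂ] H)) ⊆ A → ∑ v ∈ F, tr ξ v ≤ s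

theorem exists_max (S : Set (H →L[ℂ] H)) (ξ : ι → H) (e : H →L[ℂ] H) (s : ℝ) (hs : 0 ≤ s) :
    ∃ A, Fm S ξ e s A ∧ ∀ B, Fm S ξ e s B → A ⊆ B → B ⊆ A := by
  classical
  have h0 : Fm S ξ e s ∅ := by
    refine ⟨fun v hv => absurd hv (Set.notMem_empty v), fun v hv => absurd hv (Set.notMem_empty v),
      fun F hF => ?_⟩
    have : F = ∅ := by
      ext v
      exact ⟨fun hv => absurd (hF hv) (Set.notMem_empty v), fun hv => absurd hv (Finset.notMem_empty v)⟩
    rw [this, Finset.sum_empty]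
    exact hs
  obtain ⟨A, -, hA⟩ := zorn_subset_nonempty {A | Fm S ξ e s A} (by
    intro c hc hch hne
    refine ⟨⋃₀ c, ⟨?_, ?_, ?_⟩, fun s hs => Set.subset_sUnion_of_mem hs⟩
    · rintro v ⟨s, hs, hv⟩
      exact (hc hs).mem v hv
    · rintro v ⟨s, hs, hv⟩ v' ⟨s', hs', hv'⟩ hne
      rcases eq_or_ne s s' with rfl | hss
      · exact (hc hs).orth v hv v' hv' hne
      · rcases hch hs hs' hss with h | h
        · exact (hc hs').orth v (h hv) v' hv' hne
        · exact (hc hs).orth v hv v' (h hv') hne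
    · intro F hF
      obtain ⟨B, hB, hFB⟩ : ∃ B ∈ c, (F : Set (H →L[ℂ] H)) ⊆ B :=
        DirectedOn.exists_mem_subset_of_finset_subset_biUnion (ι := Set (H →L[ℂ] H)) (f := fun x => x) hne
          hch.directedOn (by simpa [Set.sUnion_eq_biUnion] using hF)
      exact (hc hB).le F hFB) ∅ h0
  exact ⟨A, hA.prop, fun B hB h => hA.le_of_ge hB h⟩

/-- **[TRP]** -/
theorem trp (hS : ∀ s ∈ S, adjoint s ∈ S)
    (hfa : ∀ x, Cc S x → (∀ i, x (ξ i) = 0) → x = 0) (hn : Nm S) (he : Pj S e) {s : ℝ}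
    (hs : 0 ≤ s) (hse : s ≤ tr ξ e) : ∃ p, Pj S p ∧ e * p = p ∧ tr ξ p = s := by
  classical
  obtain ⟨A, hA, hmax⟩ := exists_max S ξ e s hs
  have ha : ∀ v : A, adjoint (v : H →L[ℂ] H) = v := fun v => (hA.mem v v.2).1.adj
  have hid : ∀ v : A, (v : H →L[ℂ] H) * v = v := fun v => (hA.mem v v.2).1.idem
  obtain ⟨w, hw, hpi, hw1, hw2⟩ := exists_sum' (u := fun v : A => (v : H →L[ℂ] H))
    (fun v => by rw [ha, hid, hid])
    (fun i j hij => by rw [ha]; exact hA.orth i i.2 j j.2 fun h => hij (Subtype.ext h))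
    (fun i j hij => by rw [ha]; exact hA.orth i i.2 j j.2 fun h => hij (Subtype.ext h))
  have hwC : Cc S w := by
    intro t ht
    ext1 x
    refine (hw (t x)).unique ?_
    have b := t.hasSum (hw x)
    have c : (fun v : A => t ((v : H →L[ℂ] H) x)) = fun v : A => (v : H →L[ℂ] H) (t x) := by
      funext v
      exact (DFunLike.congr_fun ((hA.mem v v.2).1.cc t ht) x).symm
    rw [c] at b
    exact b
  have hwa : adjoint w = w := by
    ext1 x
    refine ext_inner_left ℂ fun y => ?_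
    rw [adjoint_inner_right]
    have h1 : HasSum (fun v : A => ⟪y, (v : H →L[ℂ] H) x⟫_ℂ) ⟪y, w x⟫_ℂ :=
      (innerSL ℂ y).hasSum (hw x)
    have h2 : HasSum (fun v : A => (starRingEnd ℂ) ⟪x, (v : H →L[ℂ] H) y⟫_ℂ)
        ((starRingEnd ℂ) ⟪x, w y⟫_ℂ) :=
      Complex.hasSum_conj'.2 ((innerSL ℂ x).hasSum (hw y))
    rw [inner_conj_symm] at h2
    refine h2.unique ?_
    have c : (fun v : A => (starRingEnd ℂ) ⟪x, (v : H →L[ℂ] H) y⟫_ℂ) =
        fun v : A => ⟪y, (v : H →L[ℂ] H) x⟫_ℂ := by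
      funext v
      rw [inner_conj_symm, ← ha v, adjoint_inner_left, ha v]
    rw [c]
    exact h1
  have hwv : ∀ v : A, w * v = v := fun v => by
    have := hw1 v
    rwa [ha, hid] at this
  have hww : w * w = w := by
    ext1 x
    have b := w.hasSum (hw x)
    have c : (fun v : A => w ((v : H →L[ℂ] H) x)) = fun v : A => (v : H →L[ℂ] H) x := by
      funext v
      exact DFunLike.congr_fun (hwv v) x
    rw [c] at b
    exact b.unique (hw x)
  have hew : e * w = w := by
    ext1 x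
    have b := e.hasSum (hw x)
    have c : (fun v : A => e ((v : H →L[ℂ] H) x)) = fun v : A => (v : H →L[ℂ] H) x := by
      funext v
      exact DFunLike.congr_fun (hA.mem v v.2).2.1 x
    rw [c] at b
    exact b.unique (hw x)
  have hP : Pj S w := ⟨hwC, hwa, hww⟩
  -- the trace of finite sums
  have hfin : ∀ F : Finset A, tr ξ (∑ v ∈ F, (v : H →L[ℂ] H)) = ∑ v ∈ F, tr ξ (v : H →L[ℂ] H) := by
    intro F
    induction F using Finset.induction_on with
    | empty => simp [tr_zero]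
    | insert v F hv ih =>
      rw [Finset.sum_insert hv, Finset.sum_insert hv, tr_add (ha v), ih]
      rw [Finset.mul_sum]
      exact Finset.sum_eq_zero fun v' hv' => hA.orth v v.2 v' v'.2 fun h => hv (by
        rw [show v = v' from Subtype.ext h]; exact hv')
  have hlim : Filter.Tendsto (fun F : Finset A => tr ξ (∑ v ∈ F, (v : H →L[ℂ] H))) Filter.atTop
      (nhds (tr ξ w)) := by
    refine tendsto_finset_sum _ fun i _ => ?_
    have h1 : Filter.Tendsto (fun F : Finset A => ∑ v ∈ F, (v : H →L[ℂ] H) (ξ i)) Filter.atTop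
      (nhds (w (ξ i))) := hw (ξ i)
    have h2 := (h1.norm).pow 2
    refine h2.congr fun F => ?_
    rw [ContinuousLinearMap.sum_apply]
  have hsub : ∀ F : Finset A, ∑ v ∈ F, tr ξ (v : H →L[ℂ] H) ≤ s := by
    intro F
    have := hA.le (F.image (fun v : A => (v : H →L[ℂ] H))) (by
      intro v hv
      rw [Finset.coe_image] at hv
      obtain ⟨v', -, rfl⟩ := hv
      exact v'.2)
    rwa [Finset.sum_image fun a _ b _ h => Subtype.ext h] at this
  have hle : tr ξ w ≤ s := le_of_tendsto hlim (Filter.Eventually.of_forall fun F => by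
    rw [hfin]; exact hsub F)
  refine ⟨w, hP, hew, le_antisymm hle (not_lt.1 fun hlt => ?_)⟩
  -- otherwise the family is not maximal
  have hwe := hP.adj_eq_mul he hew
  have hne : e - w ≠ 0 := fun h => by
    rw [sub_eq_zero] at h
    rw [← h] at hlt
    linarith
  obtain ⟨g, hg, hgle, hg0, hgt⟩ := small (ξ := ξ) hn (he.sub hP hew) hne (sub_pos.2 hlt)
  have hwg : w * g = 0 := by
    rw [← hgle, ← mul_assoc, mul_sub, hwe, hww, sub_self, zero_mul]
  have heg : e * g = g := by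
    rw [sub_mul, hwg, sub_zero] at hgle
    exact hgle
  have hgw : g * w = 0 := by
    have := congrArg adjoint hwg
    rwa [adj_mul', hg.adj, hwa, map_zero] at this
  have hvw : ∀ v : A, (v : H →L[ℂ] H) * w = v := fun v => by
    have := congrArg adjoint (hwv v)
    rwa [adj_mul', ha, hwa] at this
  have hvg : ∀ v ∈ A, v * g = 0 := fun v hv => by
    have h1 : v * w = v := hvw ⟨v, hv⟩
    rw [← h1, mul_assoc, hwg, mul_zero]
  have hgv : ∀ v ∈ A, g * v = 0 := fun v hv => by
    have := congrArg adjoint (hvg v hv)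
    rwa [adj_mul', hg.adj, ha ⟨v, hv⟩, map_zero] at this
  have hgA : g ∉ A := fun h => by
    have := hvg g h
    rw [hg.idem] at this
    exact hg0 this
  have hB : Fm S ξ e s (insert g A) := by
    refine ⟨?_, ?_, ?_⟩
    · rintro v (rfl | hv)
      · exact ⟨hg, heg, hg0⟩
      · exact hA.mem v hv
    · rintro v (rfl | hv) v' (rfl | hv') hne
      · exact absurd rfl hne
      · exact hgv v' hv'
      · exact hvg v hv
      · exact hA.orth v hv v' hv' hne
    · intro F hF
      have h1 : ∑ v ∈ F.erase g, tr ξ v ≤ tr ξ w := by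
        have h2 : ∀ v ∈ F.erase g, v ∈ A := fun v hv =>
          (hF (Finset.mem_of_mem_erase hv)).resolve_left (Finset.ne_of_mem_erase hv)
        have h3 : ∑ v ∈ F.erase g, tr ξ v = ∑ v ∈ (F.erase g).attach, tr ξ v.1 :=
          (Finset.sum_attach _ _).symm
        set F' : Finset A := (F.erase g).attach.image fun v => (⟨v.1, h2 v.1 v.2⟩ : A) with hF'
        have h4 : ∑ v ∈ F', tr ξ (v : H →L[ℂ] H) = ∑ v ∈ F.erase g, tr ξ v := by
          rw [hF', Finset.sum_image, h3]
          intro a _ b _ hab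
          exact Subtype.ext (Subtype.mk.inj hab)
        rw [← h4, ← hfin]
        have hmono : Monotone fun F : Finset A => tr ξ (∑ v ∈ F, (v : H →L[ℂ] H)) := by
          intro F₁ F₂ h
          simp only [hfin]
          exact Finset.sum_le_sum_of_subset_of_nonneg h fun v _ _ => tr_nonneg _
        exact hmono.ge_of_tendsto hlim F'
      by_cases hgF : g ∈ F
      · rw [← Finset.add_sum_erase F _ hgF]
        linarith
      · rw [Finset.erase_eq_of_notMem hgF] at h1
        linarith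
  exact hgA (hmax _ hB (Set.subset_insert g A) (Set.mem_insert g A))

end Vale.Agent.P092.H406.FI
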